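import Vale.Agent.P160.Count
import Mathlib.NumberTheory.LegendreSymbol.AddCharacter

/-!
P160, exponent 3/4 (helper1): random signs modulo `N`.  A linear form with `t` unit coefficients
takes a given value with probability at most `2 / √(t - 1) + 2 / N`.

Fourier inversion and the arithmetic-geometric mean reduce the bound to equal coefficients; there it
is unimodality of the binomial coefficients.
-/

namespace Vale.Agent.P160.Chain

open Finset

noncomputable section

/-- A sign modulo `N`. -/
def sgnZ (N : ℕ) (b : Bool) : ZMod N := if b then 1 else -1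

variable {N : ℕ} [NeZero N]

/-- The Fourier factor of one sign. -/
def cosZ (a : ZMod N) : ℝ := (ZMod.stdAddChar a).re

theorem char_pair (a : ZMod N) :
    ∑ b : Bool, ZMod.stdAddChar (sgnZ N b * a) = ((2 * cosZ a : ℝ) : ℂ) := by
  rw [Fintype.sum_bool]
  simp only [sgnZ, if_true, Bool.false_eq_true, if_false, one_mul, neg_one_mul]
  rw [AddChar.map_neg_eq_conj, Complex.add_conj]
  rfl

theorem char_sum {ι : Type*} (s : Finset ι) (f : ι → ZMod N) :
    ZMod.stdAddChar (∑ i ∈ s, f i) = ∏ i ∈ s, ZMod.stdAddChar (f i) := by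
  classical
  induction s using Finset.induction_on with
  | empty => simp
  | insert a s ha ih => rw [sum_insert ha, prod_insert ha, AddChar.map_add_eq_mul, ih]

theorem card_eq_fourier {ι : Type*} [Fintype ι] [DecidableEq ι] (v : ι → ZMod N) (c : ZMod N) :
    ((univ.filter fun x : ι → Bool => ∑ i, sgnZ N (x i) * v i = c).card : ℂ) * N =
      ∑ r : ZMod N, ZMod.stdAddChar (-(r * c)) * ∏ i, ((2 * cosZ (r * v i) : ℝ) : ℂ) := by
  have h := fun x : ι → Bool => AddChar.sum_mulShift (ψ := (ZMod.stdAddChar : AddChar (ZMod N) ℂ))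
    ((∑ i, sgnZ N (x i) * v i) - c) (ZMod.isPrimitive_stdAddChar N)
  simp only [ZMod.card, sub_eq_zero] at h
  calc ((univ.filter fun x : ι → Bool => ∑ i, sgnZ N (x i) * v i = c).card : ℂ) * N
      = ∑ x : ι → Bool, ∑ r : ZMod N,
          ZMod.stdAddChar (r * ((∑ i, sgnZ N (x i) * v i) - c)) := by
        simp only [h, Nat.cast_ite, Nat.cast_zero]
        rw [← sum_filter, sum_const, nsmul_eq_mul]
    _ = _ := by
        rw [sum_comm]
        refine sum_congr rfl fun r _ => ?_
        simp only [← char_pair]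
        rw [Fintype.prod_sum, mul_sum]
        refine sum_congr rfl fun x _ => ?_
        rw [mul_sub, sub_eq_neg_add, AddChar.map_add_eq_mul, mul_sum, char_sum]
        congr 1
        exact prod_congr rfl fun i _ => by congr 1; ring

theorem abs_cosZ_le (a : ZMod N) : |cosZ a| ≤ 1 :=
  (Complex.abs_re_le_norm _).trans (le_of_eq (AddChar.norm_apply _ a))

/-- Equal coefficients are the worst case. -/
theorem card_le_equal {ι : Type*} [Fintype ι] [DecidableEq ι] (v : ι → ZMod N)
    (hv : ∀ i, IsUnit (v i)) (c : ZMod N) (k : ℕ) (hk : 2 * k ≤ Fintype.card ι)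
    (hk0 : 0 < Fintype.card ι) :
    ((univ.filter fun x : ι → Bool => ∑ i, sgnZ N (x i) * v i = c).card : ℝ) * 4 ^ k ≤
      2 ^ Fintype.card ι *
        ((univ.filter fun x : Fin (2 * k) → Bool => ∑ i, sgnZ N (x i) = 0).card : ℝ) := by
  set t := Fintype.card ι
  have ht : (0 : ℝ) < t := Nat.cast_pos.2 hk0
  have hN : (0 : ℝ) < N := Nat.cast_pos.2 (Nat.pos_of_neZero N)
  -- the equal case
  have h0 : ((univ.filter fun x : Fin (2 * k) → Bool => ∑ i, sgnZ N (x i) = 0).card : ℝ) * N =
      4 ^ k * ∑ r : ZMod N, cosZ r ^ (2 * k) := by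
    have h := congrArg Complex.re (card_eq_fourier (fun _ : Fin (2 * k) => (1 : ZMod N)) 0)
    simp only [mul_zero, neg_zero, AddChar.map_zero_eq_one, one_mul, mul_one, prod_const, card_univ,
      Fintype.card_fin, Complex.re_sum, ← Complex.ofReal_pow, Complex.ofReal_re] at h
    have h' : ∀ r : ZMod N, (2 * cosZ r) ^ (2 * k) = 4 ^ k * cosZ r ^ (2 * k) := fun r => by
      rw [mul_pow, pow_mul 2]; norm_num
    simp only [h', ← mul_sum] at h
    exact_mod_cast h
  -- the Fourier bound
  have h1 : ((univ.filter fun x : ι → Bool => ∑ i, sgnZ N (x i) * v i = c).card : ℝ) * N ≤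
      2 ^ t * ∑ r : ZMod N, cosZ r ^ (2 * k) := by
    have h := congrArg (fun z : ℂ => ‖z‖) (card_eq_fourier v c)
    simp only [norm_mul, Complex.norm_natCast] at h
    rw [h]
    refine (norm_sum_le _ _).trans ?_
    calc ∑ r : ZMod N, ‖ZMod.stdAddChar (-(r * c)) * ∏ i, ((2 * cosZ (r * v i) : ℝ) : ℂ)‖
        ≤ ∑ r : ZMod N, 2 ^ t * ((t : ℝ)⁻¹ * ∑ i, cosZ (r * v i) ^ (2 * k)) := by
          refine sum_le_sum fun r _ => ?_
          rw [norm_mul, AddChar.norm_apply, one_mul, norm_prod]
          simp only [Complex.norm_real, Real.norm_eq_abs, abs_mul, abs_two]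
          rw [prod_mul_distrib, prod_const, card_univ]
          refine mul_le_mul_of_nonneg_left ?_ (by positivity)
          have hg := Real.geom_mean_le_arith_mean_weighted univ (fun _ : ι => (t : ℝ)⁻¹)
            (fun i => |cosZ (r * v i)| ^ t) (fun _ _ => by positivity)
            (by rw [sum_const, card_univ, nsmul_eq_mul, mul_inv_cancel₀ ht.ne'])
            fun i _ => by positivity
          simp only [Real.pow_rpow_inv_natCast (abs_nonneg _) hk0.ne', ← mul_sum] at hg
          refine hg.trans (mul_le_mul_of_nonneg_left (sum_le_sum fun i _ => ?_) (by positivity))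
          calc |cosZ (r * v i)| ^ t ≤ |cosZ (r * v i)| ^ (2 * k) :=
                pow_le_pow_of_le_one (abs_nonneg _) (abs_cosZ_le _) hk
            _ = cosZ (r * v i) ^ (2 * k) := Even.pow_abs (even_two_mul k) _
      _ = 2 ^ t * ∑ r : ZMod N, cosZ r ^ (2 * k) := by
          rw [← mul_sum, ← mul_sum, sum_comm]
          have he : ∀ i, ∑ r : ZMod N, cosZ (r * v i) ^ (2 * k) = ∑ r, cosZ r ^ (2 * k) := fun i => by
            obtain ⟨u, hu⟩ := hv i
            rw [← hu]
            exact Fintype.sum_equiv (Units.mulRight u) _ _ fun r => rfl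
          simp only [he, sum_const, card_univ, nsmul_eq_mul, t]
          rw [← mul_assoc (t : ℝ)⁻¹, inv_mul_cancel₀ ht.ne', one_mul]
  have h2 : (2 : ℝ) ^ t * ∑ r : ZMod N, cosZ r ^ (2 * k) =
      2 ^ t * ((univ.filter fun x : Fin (2 * k) → Bool => ∑ i, sgnZ N (x i) = 0).card : ℝ) * N
        / 4 ^ k := by
    rw [eq_div_iff (by positivity)]
    linear_combination (-(2 : ℝ) ^ t) * h0
  rw [h2, le_div_iff₀ (by positivity)] at h1
  nlinarith

/-- Spaced terms of a sequence that decreases away from the centre. -/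
theorem sum_spaced_le (a : ℕ → ℕ) (ha : Antitone a) (M : ℕ) :
    ∀ q, M * ∑ m ∈ range q, a ((m + 1) * M) ≤ ∑ d ∈ range (q * M), a (d + 1) := by
  intro q
  induction q with
  | zero => simp
  | succ q ih =>
    rw [sum_range_succ, mul_add, show (q + 1) * M = q * M + M by ring, sum_range_add]
    refine add_le_add ih ?_
    rw [← smul_eq_mul]
    simpa using Finset.card_nsmul_le_sum (range M) (fun d => a (q * M + d + 1)) (a (q * M + M))
      fun d hd => ha (by have := mem_range.1 hd; omega)

/-- A congruence class of the binomial coefficients. -/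
theorem sum_choose_mod_le (k M : ℕ) (hM : 0 < M) :
    M * ∑ j ∈ (range (2 * k + 1)).filter (fun j => j % M = k % M), (2 * k).choose j ≤
      M * (2 * k).choose k + 4 ^ k := by
  set C := fun j => (2 * k).choose j with hC
  set S := (range (2 * k + 1)).filter fun j => j % M = k % M
  have hsym : ∀ d ≤ k, C (k - d) = C (k + d) := fun d hd =>
    Nat.choose_symm_of_eq_add (by omega)
  have hanti : Antitone fun d => C (k + d) := antitone_nat_of_succ_le fun d => by
    have h := Nat.choose_succ_right_eq (2 * k) (k + d)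
    show C (k + d + 1) ≤ C (k + d)
    refine Nat.le_of_mul_le_mul_right ?_ (show 0 < k + d + 1 by omega)
    rw [hC]
    simp only [h]
    exact Nat.mul_le_mul_left _ (by omega)
  -- both sides of the centre are the same spaced sum
  have hsub : S ⊆ insert k ((range k).image (fun m => k + (m + 1) * M)
      ∪ ((range k).filter fun m => (m + 1) * M ≤ k).image fun m => k - (m + 1) * M) := by
    intro j hj
    simp only [S, mem_filter, mem_range] at hj
    simp only [mem_insert, mem_union, mem_image, mem_filter, mem_range]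
    rcases lt_trichotomy j k with h | h | h
    · obtain ⟨m, hm⟩ := (Nat.modEq_iff_dvd' h.le).1 hj.2
      have h0 : m ≠ 0 := fun e => by rw [e, mul_zero] at hm; omega
      obtain ⟨m, rfl⟩ := Nat.exists_eq_succ_of_ne_zero h0
      have h1 : (m + 1) * M = k - j := by rw [hm, mul_comm]
      have h2 : m + 1 ≤ (m + 1) * M := Nat.le_mul_of_pos_right _ hM
      exact Or.inr (Or.inr ⟨m, ⟨by omega, by omega⟩, by omega⟩)
    · exact Or.inl h
    · obtain ⟨m, hm⟩ := (Nat.modEq_iff_dvd' h.le).1 hj.2.symm
      have h0 : m ≠ 0 := fun e => by rw [e, mul_zero] at hm; omega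
      obtain ⟨m, rfl⟩ := Nat.exists_eq_succ_of_ne_zero h0
      have h1 : (m + 1) * M = j - k := by rw [hm, mul_comm]
      have h2 : m + 1 ≤ (m + 1) * M := Nat.le_mul_of_pos_right _ hM
      exact Or.inr (Or.inl ⟨m, by omega, by omega⟩)
  set T := ∑ m ∈ range k, C (k + (m + 1) * M) with hT
  have hS : ∑ j ∈ S, C j ≤ C k + (T + T) := by
    refine (sum_le_sum_of_subset hsub).trans ?_
    have hu : ∀ A B : Finset ℕ, ∑ j ∈ A ∪ B, C j ≤ ∑ j ∈ A, C j + ∑ j ∈ B, C j := fun A B => by
      rw [← sum_union_inter]; exact Nat.le_add_right _ _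
    rw [insert_eq]
    refine (hu _ _).trans ?_
    rw [sum_singleton]
    refine Nat.add_le_add_left ((hu _ _).trans (add_le_add ?_ ?_)) _
    · exact sum_image_le_of_nonneg fun _ _ => Nat.zero_le _
    · refine (sum_image_le_of_nonneg fun _ _ => Nat.zero_le _).trans ?_
      rw [sum_congr rfl fun m hm => hsym _ (mem_filter.1 hm).2]
      exact sum_le_sum_of_subset (filter_subset _ _)
  have hTM : M * T ≤ ∑ d ∈ range k, C (k + 1 + d) := by
    refine (sum_spaced_le _ hanti M k).trans (le_of_eq ?_)
    rw [← sum_range_add_sum_Ico _ (Nat.le_mul_of_pos_right k hM),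
      sum_eq_zero (s := Ico k (k * M)) fun d hd => Nat.choose_eq_zero_of_lt
        (by have := (mem_Ico.1 hd).1; omega), add_zero]
    exact sum_congr rfl fun d _ => by rw [add_comm d 1, ← add_assoc]
  have htot : 2 * ∑ d ∈ range k, C (k + 1 + d) ≤ 4 ^ k := by
    have e : ∑ j ∈ range (2 * k + 1), C j = 4 ^ k := by
      rw [hC, Nat.sum_range_choose, pow_mul]; norm_num
    rw [← e, show 2 * k + 1 = k + 1 + k by ring, sum_range_add, sum_range_succ, two_mul]
    refine Nat.add_le_add_right (le_add_right (le_of_eq ?_)) _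
    rw [← sum_range_reflect (fun j => C j) k]
    refine sum_congr rfl fun d hd => ?_
    have := mem_range.1 hd
    rw [show k + 1 + d = k + (d + 1) by ring, ← hsym (d + 1) (by omega),
      show k - 1 - d = k - (d + 1) by omega]
  calc M * ∑ j ∈ S, C j ≤ M * (C k + (T + T)) := Nat.mul_le_mul_left _ hS
    _ = M * C k + 2 * (M * T) := by ring
    _ ≤ _ := Nat.add_le_add_left ((Nat.mul_le_mul_left 2 hTM).trans htot) _

/-- Equal coefficients. -/
theorem card_equal_le (k : ℕ) :
    ((univ.filter fun x : Fin (2 * k) → Bool => ∑ i, sgnZ N (x i) = 0).card : ℝ) ≤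
      (2 * k).choose k + 2 * 4 ^ k / N := by
  set M := N / Nat.gcd N 2 with hMdef
  have hg : Nat.gcd N 2 ∣ N := Nat.gcd_dvd_left _ _
  have hN := Nat.pos_of_neZero N
  have hM : 0 < M := Nat.div_pos (Nat.le_of_dvd hN hg) (Nat.gcd_pos_of_pos_left _ hN)
  have hNM : N ≤ 2 * M := by
    calc N = Nat.gcd N 2 * M := (Nat.mul_div_cancel' hg).symm
      _ ≤ _ := Nat.mul_le_mul_right _ (Nat.le_of_dvd two_pos (Nat.gcd_dvd_right _ _))
  set P : (Fin (2 * k) → Bool) → Finset (Fin (2 * k)) := fun x => univ.filter fun i => x i = true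
    with hP
  have hinj : Function.Injective P := fun x y h => funext fun i => by
    have := Finset.ext_iff.1 h i
    simpa [hP] using this
  have key : ∀ x : Fin (2 * k) → Bool, ∑ i, sgnZ N (x i) = 0 →
      (P x).card % M = k % M := by
    intro x hx
    have e : ∑ i, sgnZ N (x i) = ((2 * (P x).card : ℕ) : ZMod N) - ((2 * k : ℕ) : ZMod N) := by
      have e1 : ∀ i, sgnZ N (x i) = 2 * (if x i then 1 else 0) - 1 := fun i => by
        cases x i <;> simp [sgnZ]; ring
      simp only [e1, sum_sub_distrib, ← mul_sum, sum_boole, sum_const, card_univ,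
        Fintype.card_fin, nsmul_eq_mul, mul_one]
      push_cast
      rfl
    rw [e, sub_eq_zero, ZMod.natCast_eq_natCast_iff] at hx
    exact Nat.ModEq.cancel_left_div_gcd hN hx
  have h1 : (univ.filter fun x : Fin (2 * k) → Bool => ∑ i, sgnZ N (x i) = 0).card ≤
      ∑ j ∈ (range (2 * k + 1)).filter (fun j => j % M = k % M), (2 * k).choose j := by
    rw [← card_image_of_injective _ hinj]
    refine (card_le_card (t := ((range (2 * k + 1)).filter fun j => j % M = k % M).biUnion
      fun j => (univ : Finset (Fin (2 * k))).powersetCard j) ?_).trans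
      (card_biUnion_le.trans (le_of_eq (sum_congr rfl fun j _ => by
        rw [card_powersetCard, card_univ, Fintype.card_fin])))
    intro F hF
    obtain ⟨x, hx, rfl⟩ := mem_image.1 hF
    refine mem_biUnion.2 ⟨(P x).card, mem_filter.2 ⟨mem_range.2 ?_, key x (mem_filter.1 hx).2⟩,
      mem_powersetCard.2 ⟨subset_univ _, rfl⟩⟩
    have := card_le_univ (P x)
    rw [Fintype.card_fin] at this
    omega
  have h2 := sum_choose_mod_le k M hM
  have hM' : (0 : ℝ) < M := Nat.cast_pos.2 hM
  have hN' : (0 : ℝ) < N := Nat.cast_pos.2 hN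
  have h3 : (N : ℝ) ≤ 2 * M := by exact_mod_cast hNM
  have h4 : ((univ.filter fun x : Fin (2 * k) → Bool => ∑ i, sgnZ N (x i) = 0).card : ℝ) * M ≤
      (2 * k).choose k * M + 4 ^ k := by
    have := (Nat.mul_le_mul_left M h1).trans h2
    rw [mul_comm (_ : ℝ) (M : ℝ), mul_comm (_ : ℝ) (M : ℝ)]
    exact_mod_cast this
  have h5 : (4 : ℝ) ^ k / M ≤ 2 * 4 ^ k / N := by
    rw [div_le_div_iff₀ hM' hN']
    nlinarith [pow_pos (four_pos : (0 : ℝ) < 4) k]
  have h6 := (le_div_iff₀ hM').2 h4
  rw [add_div, mul_div_cancel_right₀ _ hM'.ne'] at h6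
  linarith

/-- Random signs modulo `N`: with `t` unit coefficients a value has probability at most
`2 / √(t - 1) + 2 / N`. -/
theorem small_ball_mod {ι : Type*} [Fintype ι] [DecidableEq ι] (v : ι → ZMod N) (c : ZMod N)
    (T : Finset ι) (hT : ∀ i ∈ T, IsUnit (v i)) (ht : 2 ≤ T.card) :
    ((univ.filter fun x : ι → Bool => ∑ i, sgnZ N (x i) * v i = c).card : ℝ) ≤
      2 ^ Fintype.card ι * (2 / Real.sqrt ((T.card : ℝ) - 1) + 2 / N) := by
  set k := T.card / 2
  set B := ((univ.filter fun x : Fin (2 * k) → Bool => ∑ i, sgnZ N (x i) = 0).card : ℝ)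
  have hk : 0 < k := Nat.div_pos ht two_pos
  -- bound of the equal case
  have hB : B / 4 ^ k ≤ 2 / Real.sqrt ((T.card : ℝ) - 1) + 2 / N := by
    have h := card_equal_le (N := N) k
    have hc := choose_middle_sq_le (2 * k)
    rw [Nat.mul_div_cancel_left k two_pos, pow_mul] at hc
    have hc' : ((2 * k).choose k : ℝ) ^ 2 * (2 * k) ≤ 4 * ((4 : ℝ) ^ k) ^ 2 := by
      rw [← pow_mul, mul_comm k 2, pow_mul]
      norm_num at hc ⊢
      exact_mod_cast hc
    have hs : 0 < Real.sqrt ((T.card : ℝ) - 1) := Real.sqrt_pos.2 (by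
      have : (2 : ℝ) ≤ T.card := by exact_mod_cast ht
      linarith)
    have hle : ((2 * k).choose k : ℝ) / 4 ^ k ≤ 2 / Real.sqrt ((T.card : ℝ) - 1) := by
      rw [div_le_div_iff₀ (by positivity) hs]
      have h2k : (T.card : ℝ) - 1 ≤ 2 * k := by
        have : T.card ≤ 2 * k + 1 := by omega
        have : (T.card : ℝ) ≤ 2 * k + 1 := by exact_mod_cast this
        linarith
      refine (mul_le_mul_of_nonneg_left (Real.sqrt_le_sqrt h2k) (Nat.cast_nonneg _)).trans ?_
      refine (pow_le_pow_iff_left₀ (by positivity) (by positivity) two_ne_zero).1 ?_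
      rw [mul_pow, mul_pow, Real.sq_sqrt (by positivity)]
      linarith
    rw [div_le_iff₀ (by positivity : (0 : ℝ) < 4 ^ k)]
    rw [div_le_iff₀ (by positivity : (0 : ℝ) < 4 ^ k)] at hle
    calc B ≤ _ := h
      _ ≤ 2 / Real.sqrt ((T.card : ℝ) - 1) * 4 ^ k + 2 * 4 ^ k / N := by linarith
      _ = _ := by ring
  -- conditioning on the other coordinates
  set E := univ.filter fun x : ι → Bool => ∑ i, sgnZ N (x i) * v i = c
  set b := ⌊(2 : ℝ) ^ T.card * (B / 4 ^ k)⌋₊
  have hcond := card_mul_two_pow_le E T b fun ω₀ _ => by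
    let φ : (ι → Bool) → (T → Bool) := fun ω i => ω i
    set c' := c - ∑ i ∈ Tᶜ, sgnZ N (ω₀ i) * v i
    have hsub : ∀ ω ∈ E.filter (fun ω => ∀ e, e ∉ T → ω e = ω₀ e),
        φ ω ∈ (univ : Finset (T → Bool)).filter fun y => ∑ i : T, sgnZ N (y i) * v i = c' := by
      intro ω hω
      simp only [E, mem_filter, mem_univ, true_and] at hω ⊢
      rw [Finset.sum_coe_sort T fun i => sgnZ N (ω i) * v i, eq_sub_iff_add_eq, ← hω.1,
        sum_congr rfl fun i hi => show sgnZ N (ω₀ i) * v i = sgnZ N (ω i) * v i by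
          rw [hω.2 i (mem_compl.1 hi)]]
      exact sum_add_sum_compl _ _
    refine (card_le_card_of_injOn φ hsub ?_).trans (Nat.le_floor ?_)
    · intro ω hω ω' hω' he
      simp only [coe_filter, Set.mem_ofPred_eq] at hω hω'
      funext i
      by_cases hi : i ∈ T
      · exact congrFun he ⟨i, hi⟩
      · rw [hω.2 i hi, hω'.2 i hi]
    · have h := card_le_equal (N := N) (fun i : T => v i) (fun i => hT i i.2) c' k
        (by rw [Fintype.card_coe]; omega) (by rw [Fintype.card_coe]; omega)
      rw [Fintype.card_coe, ← le_div_iff₀ (by positivity)] at h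
      exact h.trans (le_of_eq (by ring))
  have hb : (b : ℝ) ≤ 2 ^ T.card * (2 / Real.sqrt ((T.card : ℝ) - 1) + 2 / N) :=
    (Nat.floor_le (by positivity)).trans (mul_le_mul_of_nonneg_left hB (by positivity))
  have hE : (E.card : ℝ) * 2 ^ T.card ≤ b * 2 ^ Fintype.card ι := by exact_mod_cast hcond
  have := hE.trans (mul_le_mul_of_nonneg_right hb (by positivity))
  nlinarith [pow_pos (two_pos : (0 : ℝ) < 2) T.card]

end

end Vale.Agent.P160.Chain
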